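import Vale.Agent.P229.Cor

/-!
# P229: local smooth isometric realization, classes of metrics with arbitrary smooth data
-/

set_option autoImplicit false

open scoped ContDiff Matrix

namespace Vale.Agent.Results.P229.KinematicSurfaces

open Vale.Agent.P229

/-- The following symmetric 2-tensors, with arbitrary `C^∞` data, are induced near every point
(at which (1) is positive definite, resp. `E > 0` in (2)) by a `C^∞` map into `ℝ³`:
(1) `E(u) du² + 2 f(u) g(v) du dv + G(v) dv²`; (2) `E(u) du² + (a(v) + b(v) x(u))² dv²`;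
(3) `(x'(u)² + z'(u)²) du² + (a(v) + b(v) x(u) + c(v) z(u))² dv²`;
(4) `|p'|² du² + 2 p' · (γ + w × p) du dv + |γ + w × p|² dv²` for curves `p(u)`, `γ(v)`, `w(v)` in
`ℝ³`. -/
theorem result :
    (∀ E f g G : ℝ → ℝ, ContDiff ℝ ∞ E → ContDiff ℝ ∞ f → ContDiff ℝ ∞ g → ContDiff ℝ ∞ G →
      ∀ u₀ v₀ : ℝ, 0 < E u₀ → (f u₀ * g v₀) ^ 2 < E u₀ * G v₀ →
      Realizable (fun u _ => E u) (fun u v => f u * g v) (fun _ v => G v) u₀ v₀) ∧
    (∀ E x a b : ℝ → ℝ, ContDiff ℝ ∞ E → ContDiff ℝ ∞ x → ContDiff ℝ ∞ a → ContDiff ℝ ∞ b →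
      ∀ u₀ v₀ : ℝ, 0 < E u₀ →
      Realizable (fun u _ => E u) (fun _ _ => 0) (fun u v => (a v + b v * x u) ^ 2) u₀ v₀) ∧
    (∀ x z a b c : ℝ → ℝ, ContDiff ℝ ∞ x → ContDiff ℝ ∞ z → ContDiff ℝ ∞ a → ContDiff ℝ ∞ b →
      ContDiff ℝ ∞ c → ∀ u₀ v₀ : ℝ,
      Realizable (fun u _ => deriv x u ^ 2 + deriv z u ^ 2) (fun _ _ => 0)
        (fun u v => (a v + b v * x u + c v * z u) ^ 2) u₀ v₀) ∧
    (∀ p γ w : ℝ → Fin 3 → ℝ, ContDiff ℝ ∞ p → ContDiff ℝ ∞ γ → ContDiff ℝ ∞ w →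
      ∀ u₀ v₀ : ℝ,
      Realizable (fun u _ => deriv p u ⬝ᵥ deriv p u)
        (fun u v => deriv p u ⬝ᵥ (γ v + w v ⨯₃ p u))
        (fun u v => (γ v + w v ⨯₃ p u) ⬝ᵥ (γ v + w v ⨯₃ p u)) u₀ v₀) := by
  refine ⟨?_, ?_, ?_, ?_⟩
  · intro E f g G hE hf hg hG u₀ v₀ h0 h1
    exact translation E f g G hE hf hg hG u₀ v₀ h0 h1
  · intro E x a b hE hx ha hb u₀ v₀ h0
    exact molding E x a b hE hx ha hb u₀ v₀ h0
  · intro x z a b c hx hz ha hb hc u₀ v₀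
    have hx' : ContDiff ℝ ∞ (deriv x) := (contDiff_infty_iff_deriv.1 hx).2
    have hz' : ContDiff ℝ ∞ (deriv z) := (contDiff_infty_iff_deriv.1 hz).2
    exact molding2 Set.univ isOpen_univ x z (deriv x) (deriv z) a b c
      (fun u _ => (hx.differentiable (by simp)).differentiableAt.hasDerivAt)
      (fun u _ => (hz.differentiable (by simp)).differentiableAt.hasDerivAt)
      hx'.contDiffOn hz'.contDiffOn ha hb hc u₀ v₀ (Set.mem_univ _) _ _
      (fun _ _ _ => rfl) (fun _ _ _ => rfl)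
  · intro p γ w hp hγ hw u₀ v₀
    exact kinematic p γ w hp hγ hw u₀ v₀

end Vale.Agent.Results.P229.KinematicSurfaces
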